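import Vale.Agent.P058.Descent

namespace Vale.Agent.Results.P058.Classify

open Vale.Agent.P058

theorem result :
    (∀ (d : ℕ) (A : Finset (EuclideanSpace ℝ (Fin d))), A.Nonempty →
      ∀ (F : IntermediateField ℚ ℝ) (hF : ∀ a ∈ A, ∀ α, a α ∈ F),
        (IsRamsey A ↔ TensorCondition A F hF)) ∧
    (∀ (d : ℕ) (A : Finset (EuclideanSpace ℝ (Fin d))), A.Nonempty →
      IsSubtransitive A → IsRamsey A) :=
  ⟨fun _ A hA F hF => ramsey_iff_tensor A hA F hF, fun _ A hA h => ramsey_of_subtransitive A hA h⟩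

end Vale.Agent.Results.P058.Classify
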